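import Vale.Agent.P365.T2.H694.Marg
import Vale.Agent.P365.Comp.Reg
import Vale.Agent.P365.T1.Bad2

/-!
# P365-T2, block B4 (helper694): block-aligned copy of a box of the square lattice in the torus.
-/

set_option linter.all false

namespace P365T2.H694

open MeasureTheory P365L P365O P365T1 Function P365L.Comp
open scoped ENNReal

/-! ### geometry -/

section geo

variable {N : ℕ} [NeZero N]

/-- image of the site `x` in the torus, the box `[-K, K)²` at the origin of the grid -/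
def emb (N K : ℕ) (x : Site) : Tor N := (((x.1 + K : ℤ) : ZMod N), ((x.2 + K : ℤ) : ZMod N))

/-- the box `[-K, K)²` -/
def Box (K : ℕ) (x : Site) : Prop := -(K : ℤ) ≤ x.1 ∧ x.1 < K ∧ -(K : ℤ) ≤ x.2 ∧ x.2 < K

/-- the site of the square lattice over `y` -/
def lft (K : ℕ) (y : Tor N) : Site := ((y.1.val : ℤ) - K, (y.2.val : ℤ) - K)

theorem emb_lft (K : ℕ) (y : Tor N) : emb N K (lft K y) = y := by
  unfold emb lft
  ext
  · simp
  · simp

theorem cast_val {t : ℤ} (h0 : 0 ≤ t) (h1 : t < N) : (((t : ZMod N).val : ℕ) : ℤ) = t := by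
  rw [ZMod.val_intCast, Int.emod_eq_of_lt h0 h1]

theorem emb_fst_val {K : ℕ} (hN : 2 * K ≤ N) {x : Site} (hx : Box K x) :
    (((emb N K x).1.val : ℕ) : ℤ) = x.1 + K := by
  obtain ⟨h1, h2, h3, h4⟩ := hx
  exact cast_val (by omega) (by omega)

theorem emb_snd_val {K : ℕ} (hN : 2 * K ≤ N) {x : Site} (hx : Box K x) :
    (((emb N K x).2.val : ℕ) : ℤ) = x.2 + K := by
  obtain ⟨h1, h2, h3, h4⟩ := hx
  exact cast_val (by omega) (by omega)

theorem lft_emb {K : ℕ} (hN : 2 * K ≤ N) {x : Site} (hx : Box K x) : lft K (emb N K x) = x := by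
  unfold lft
  rw [emb_fst_val hN hx, emb_snd_val hN hx]
  ext
  · simp
  · simp

theorem emb_inj {K : ℕ} (hN : 2 * K ≤ N) {x y : Site} (hx : Box K x) (hy : Box K y)
    (h : emb N K x = emb N K y) : x = y := by
  rw [← lft_emb hN hx, ← lft_emb hN hy, h]

theorem cast_eq_iff {d c : ℤ} (h : |c - d| < N) : ((d : ℤ) : ZMod N) = ((c : ℤ) : ZMod N) ↔ d = c := by
  rw [ZMod.intCast_eq_intCast_iff_dvd_sub]
  constructor
  · intro h1
    have h2 := Int.eq_zero_of_abs_lt_dvd h1 h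
    omega
  · rintro rfl
    simp

/-- adjacency is preserved -/
theorem AT_emb {K : ℕ} (hN : 2 * K < N) {a b : Site} (ha : Box K a) (hb : Box K b) :
    AT N (emb N K a) (emb N K b) = adj a b := by
  obtain ⟨a1, a2, a3, a4⟩ := ha
  obtain ⟨b1, b2, b3, b4⟩ := hb
  have e1 : emb N K b - emb N K a = (((b.1 - a.1 : ℤ) : ZMod N), ((b.2 - a.2 : ℤ) : ZMod N)) := by
    unfold emb
    ext
    · simp
    · simp
  have c0 : ∀ d : ℤ, |d| < N → (((d : ℤ) : ZMod N) = 0 ↔ d = 0) := by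
    intro d hd
    have := cast_eq_iff (N := N) (d := d) (c := 0) (by rwa [zero_sub, abs_neg])
    simpa using this
  have c1 : ∀ d : ℤ, |d| + 1 < N → (((d : ℤ) : ZMod N) = 1 ↔ d = 1) := by
    intro d hd
    have := cast_eq_iff (N := N) (d := d) (c := 1) (by
      rw [abs_lt]; have := abs_lt.1 (show |d| < N - 1 by omega); omega)
    simpa using this
  have c2 : ∀ d : ℤ, |d| + 1 < N → (((d : ℤ) : ZMod N) = -1 ↔ d = -1) := by
    intro d hd
    have := cast_eq_iff (N := N) (d := d) (c := -1) (by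
      rw [abs_lt]; have := abs_lt.1 (show |d| < N - 1 by omega); omega)
    simpa using this
  have d1 : |b.1 - a.1| + 1 < N ∧ |b.2 - a.2| + 1 < N ∨ K = 0 := by
    rcases Nat.eq_zero_or_pos K with h | h
    · exact Or.inr h
    · left
      constructor
      · have : |b.1 - a.1| ≤ 2 * K - 1 := by rw [abs_le]; omega
        omega
      · have : |b.2 - a.2| ≤ 2 * K - 1 := by rw [abs_le]; omega
        omega
  rcases d1 with ⟨d1, d2⟩ | hK
  · have h0 : (emb N K b - emb N K a ∈ nbs N) ↔ (a.1 - b.1).natAbs + (a.2 - b.2).natAbs = 1 := by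
      rw [e1]
      unfold nbs
      simp only [Finset.mem_insert, Finset.mem_singleton, Prod.mk.injEq]
      rw [c0 _ (by omega), c0 _ (by omega), c1 _ d1, c1 _ d2, c2 _ d1, c2 _ d2]
      omega
    unfold AT adj
    simp only [h0]
  · omega

/-- blocks of the torus and blocks of the lattice -/
theorem bi_lft {K M : ℕ} (hM : 0 < M) (hK : M ∣ K) (y : Tor N) :
    (lft K y).1 / (M : ℤ) = ((bi M y).1 : ℤ) - (K / M : ℕ) ∧
      (lft K y).2 / (M : ℤ) = ((bi M y).2 : ℤ) - (K / M : ℕ) := by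
  obtain ⟨k, rfl⟩ := hK
  have hM' : (M : ℤ) ≠ 0 := by exact_mod_cast hM.ne'
  unfold lft bi
  simp only
  rw [Nat.mul_div_cancel_left _ hM]
  constructor
  · push_cast
    rw [show ((y.1.val : ℤ) - M * k) = y.1.val + M * (-k) by ring, Int.add_mul_ediv_left _ _ hM']
    ring
  · push_cast
    rw [show ((y.2.val : ℤ) - M * k) = y.2.val + M * (-k) by ring, Int.add_mul_ediv_left _ _ hM']
    ring

/-- unions of blocks of the square lattice -/
def UBl (M : ℕ) (X0 : Finset Site) : Prop :=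
  ∀ x y : Site, x.1 / (M : ℤ) = y.1 / (M : ℤ) → x.2 / (M : ℤ) = y.2 / (M : ℤ) → x ∈ X0 → y ∈ X0

open Classical in
/-- the copy of `X0` in the torus -/
noncomputable def img (N K : ℕ) [NeZero N] (X0 : Finset Site) : Finset (Tor N) :=
  Finset.univ.filter fun y => lft K y ∈ X0

theorem mem_img {K : ℕ} {X0 : Finset Site} {y : Tor N} : y ∈ img N K X0 ↔ lft K y ∈ X0 := by
  simp [img]

theorem emb_mem_img {K : ℕ} (hN : 2 * K ≤ N) {X0 : Finset Site} {x : Site} (hx : Box K x) :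
    emb N K x ∈ img N K X0 ↔ x ∈ X0 := by
  rw [mem_img, lft_emb hN hx]

theorem img_eq {K : ℕ} (hN : 2 * K ≤ N) {X0 : Finset Site} (hX : ∀ x ∈ X0, Box K x) :
    img N K X0 = X0.image (emb N K) := by
  ext y
  rw [mem_img, Finset.mem_image]
  constructor
  · exact fun h => ⟨_, h, emb_lft K y⟩
  · rintro ⟨x, hx, rfl⟩
    rwa [lft_emb hN (hX x hx)]

theorem card_img {K : ℕ} (hN : 2 * K ≤ N) {X0 : Finset Site} (hX : ∀ x ∈ X0, Box K x) :
    (img N K X0).card = X0.card := by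
  rw [img_eq hN hX]
  exact Finset.card_image_of_injOn fun x hx y hy h => emb_inj hN (hX x hx) (hX y hy) h

/-- the copy of a union of blocks is a union of blocks -/
theorem img_union {K M : ℕ} (hM : 0 < M) (hK : M ∣ K) {X0 : Finset Site} (hX : UBl M X0)
    (x y : Tor N) (h : bi M x = bi M y) : x ∈ img N K X0 ↔ y ∈ img N K X0 := by
  have hx := bi_lft hM hK x
  have hy := bi_lft hM hK y
  rw [mem_img, mem_img]
  constructor
  · exact hX _ _ (by rw [hx.1, hy.1, h]) (by rw [hx.2, hy.2, h])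
  · exact hX _ _ (by rw [hx.1, hy.1, h]) (by rw [hx.2, hy.2, h])

end geo

/-! ### the crossing quantity and its transport -/

section crs

variable {κ ι Λ : Type*} [Fintype κ] [DecidableEq κ] [Fintype ι] [DecidableEq ι] [Fintype Λ]

/-- the crossing quantity between `S` and `Y`: absorptions `e`, weights `w`, power `q / 2` -/
noncomputable def Crs (A : Matrix ι ι ℝ) (p : Λ → ℝ) (ν : Λ → Measure ℝ) (E : ℝ)
    (e w : (ι → Λ) → ι → ℝ) (S Y : Finset ι) (q : ℝ) : ℝ≥0∞ :=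
  ∑ l : ι → Λ, ENNReal.ofReal (∏ x, p (l x)) *
    ∫⁻ v, ENNReal.ofReal ((∑ x ∈ S, ∑ y ∈ Y, w l x * w l y *
      ‖Gr A (WV E (e l) v) x y‖ ^ 2) ^ (q / 2)) ∂(Measure.pi fun x => ν (l x))

theorem measurable_crs (A : Matrix ι ι ℝ) (E : ℝ) (e w : ι → ℝ) (S Y : Finset ι) (q : ℝ) :
    Measurable fun v : ι → ℝ => ENNReal.ofReal ((∑ x ∈ S, ∑ y ∈ Y, w x * w y *
      ‖Gr A (WV E e v) x y‖ ^ 2) ^ (q / 2)) := by
  refine ENNReal.measurable_ofReal.comp (Measurable.pow_const ?_ _)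
  refine Finset.measurable_sum _ fun x _ => Finset.measurable_sum _ fun y _ => ?_
  exact ((P365T1.Bad.measurable_Gr_WV A E e x y).norm.pow_const 2).const_mul _

/-- **TRANSPORT** of the crossing quantity to a decoupled block -/
theorem Crs_block {A : Matrix ι ι ℝ} (hA : A.IsSymm) (e : κ ↪ ι)
    (hD : Dec A fun x => x ∈ Set.range e) {B : Matrix κ κ ℝ} (hB : A.submatrix e e = B)
    {p : Λ → ℝ} (hp0 : ∀ k, 0 ≤ p k) (hp : ∑ k, p k = 1) {ν : Λ → Measure ℝ}
    [∀ k, IsProbabilityMeasure (ν k)] (E : ℝ) {eN wN : (ι → Λ) → ι → ℝ}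
    {eX wX : (κ → Λ) → κ → ℝ} (hpos : ∀ l x, 0 < eN l x)
    (he : ∀ l k, eN l (e k) = eX (fun j => l (e j)) k)
    (hw : ∀ l k, wN l (e k) = wX (fun j => l (e j)) k) (S Y : Finset κ) (q : ℝ) :
    Crs A p ν E eN wN (S.map e) (Y.map e) q = Crs B p ν E eX wX S Y q := by
  subst hB
  unfold Crs
  have hp1 : ∑ k, ENNReal.ofReal (p k) = 1 := by
    rw [← ENNReal.ofReal_sum_of_nonneg fun k _ => hp0 k, hp, ENNReal.ofReal_one]
  have h1 := lint_marg (fun k => ENNReal.ofReal (p k)) hp1 ν e e.injective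
    (fun l v => ENNReal.ofReal ((∑ x ∈ S, ∑ y ∈ Y, wX l x * wX l y *
      ‖Gr (A.submatrix e e) (WV E (eX l) v) x y‖ ^ 2) ^ (q / 2)))
    (fun l => measurable_crs _ E (eX l) (wX l) S Y q)
  have h3 : ∑ l : κ → Λ, ENNReal.ofReal (∏ k, p (l k)) *
      ∫⁻ v, ENNReal.ofReal ((∑ x ∈ S, ∑ y ∈ Y, wX l x * wX l y *
        ‖Gr (A.submatrix e e) (WV E (eX l) v) x y‖ ^ 2) ^ (q / 2)) ∂(Measure.pi fun k => ν (l k)) =
      ∑ l : κ → Λ, (∏ k, ENNReal.ofReal (p (l k))) *
      ∫⁻ v, ENNReal.ofReal ((∑ x ∈ S, ∑ y ∈ Y, wX l x * wX l y *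
        ‖Gr (A.submatrix e e) (WV E (eX l) v) x y‖ ^ 2) ^ (q / 2)) ∂(Measure.pi fun k => ν (l k)) :=
    Finset.sum_congr rfl fun l _ => by rw [ENNReal.ofReal_prod_of_nonneg fun x _ => hp0 _]
  rw [h3, ← h1]
  refine Finset.sum_congr rfl fun l _ => ?_
  rw [ENNReal.ofReal_prod_of_nonneg fun x _ => hp0 _]
  congr 1
  refine lintegral_congr fun v => ?_
  rw [Finset.sum_map]
  congr 2
  refine Finset.sum_congr rfl fun a _ => ?_
  rw [Finset.sum_map]
  refine Finset.sum_congr rfl fun b _ => ?_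
  rw [hw, hw, Gr_block hA (P365T1.Bad.WV_neg (hpos l) v) e e.injective hD a b]
  have h2 : (fun k => WV E (eN l) v (e k)) = WV E (eX fun j => l (e j)) (fun k => v (e k)) := by
    funext k
    unfold WV
    rw [he]
  rw [h2]

end crs

end P365T2.H694

namespace P365T2.H694

open MeasureTheory P365L P365O P365T1 Function P365L.Comp
open scoped ENNReal

section fin

variable {N : ℕ} [NeZero N] {K : ℕ} {X0 : Finset Site}

/-- the embedding of `X0` -/
def embE (hN : 2 * K ≤ N) (hX : ∀ x ∈ X0, Box K x) : X0 ↪ Tor N where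
  toFun x := emb N K x
  inj' x y h := Subtype.ext (emb_inj hN (hX x x.2) (hX y y.2) h)

theorem mem_range_embE (hN : 2 * K ≤ N) (hX : ∀ x ∈ X0, Box K x) (y : Tor N) :
    y ∈ Set.range (embE hN hX) ↔ y ∈ img N K X0 := by
  rw [img_eq hN hX, Finset.mem_image]
  constructor
  · rintro ⟨x, rfl⟩
    exact ⟨x, x.2, rfl⟩
  · rintro ⟨x, hx, rfl⟩
    exact ⟨⟨x, hx⟩, rfl⟩

/-- a matrix which is `AT` inside the copy: its block is the adjacency matrix of `X0` -/
theorem submatrix_embE (hN : 2 * K < N) (hX : ∀ x ∈ X0, Box K x)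
    {A : Matrix (Tor N) (Tor N) ℝ}
    (h1 : ∀ x ∈ img N K X0, ∀ y ∈ img N K X0, A x y = AT N x y) :
    A.submatrix (embE hN.le hX) (embE hN.le hX) = AF X0 := by
  ext x y
  have hx : embE hN.le hX x ∈ img N K X0 := (mem_range_embE hN.le hX _).1 ⟨x, rfl⟩
  have hy : embE hN.le hX y ∈ img N K X0 := (mem_range_embE hN.le hX _).1 ⟨y, rfl⟩
  rw [Matrix.submatrix_apply, h1 _ hx _ hy]
  exact AT_emb hN (hX x x.2) (hX y y.2)

theorem dec_embE (hN : 2 * K < N) (hX : ∀ x ∈ X0, Box K x)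
    {A : Matrix (Tor N) (Tor N) ℝ}
    (h0 : ∀ x y, ¬(x ∈ img N K X0 ∧ y ∈ img N K X0) → A x y = 0) :
    Dec A fun x => x ∈ Set.range (embE hN.le hX) := by
  intro x y h
  simp only [mem_range_embE] at h
  exact h0 x y (by tauto)

/-- **transport of the crossing quantity from the copy in the torus to `X0`** -/
theorem Crs_torus (hN : 2 * K < N) (hX : ∀ x ∈ X0, Box K x)
    {A : Matrix (Tor N) (Tor N) ℝ} (hA : A.IsSymm)
    (h1 : ∀ x ∈ img N K X0, ∀ y ∈ img N K X0, A x y = AT N x y)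
    (h0 : ∀ x y, ¬(x ∈ img N K X0 ∧ y ∈ img N K X0) → A x y = 0)
    {Λ : Type*} [Fintype Λ] {p : Λ → ℝ} (hp0 : ∀ k, 0 ≤ p k) (hp : ∑ k, p k = 1)
    {ν : Λ → Measure ℝ} [∀ k, IsProbabilityMeasure (ν k)] (E : ℝ)
    {eN wN : (Tor N → Λ) → Tor N → ℝ} {eX wX : (X0 → Λ) → X0 → ℝ} (hpos : ∀ l x, 0 < eN l x)
    (he : ∀ l k, eN l (embE hN.le hX k) = eX (fun j => l (embE hN.le hX j)) k)
    (hw : ∀ l k, wN l (embE hN.le hX k) = wX (fun j => l (embE hN.le hX j)) k)
    (S Y : Finset X0) (q : ℝ) :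
    Crs A p ν E eN wN (S.map (embE hN.le hX)) (Y.map (embE hN.le hX)) q =
      Crs (AF X0) p ν E eX wX S Y q :=
  Crs_block hA (embE hN.le hX) (dec_embE hN hX h0) (submatrix_embE hN hX h1) hp0 hp E hpos he hw
    S Y q

end fin

end P365T2.H694
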