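import Vale.Agent.P365.T2.H694.Geo

/-!
# P365-T2 (helper694): the embedding with an arbitrary shift `K` (e.g. `K = N / 2`), sites in a
smaller box.
-/

set_option linter.all false

namespace P365T2.H694

open MeasureTheory P365L P365O P365T1 Function P365L.Comp
open scoped ENNReal

variable {N : ℕ} [NeZero N]

theorem Box.mono {K K' : ℕ} (h : K' ≤ K) {x : Site} (hx : Box K' x) : Box K x := by
  obtain ⟨h1, h2, h3, h4⟩ := hx
  refine ⟨?_, ?_, ?_, ?_⟩ <;> omega

/-- changing the shift is a translation of the torus -/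
theorem emb_shift (K K' : ℕ) (x : Site) :
    emb N K x = emb N K' x + ((((K : ℤ) - K' : ℤ) : ZMod N), (((K : ℤ) - K' : ℤ) : ZMod N)) := by
  unfold emb
  ext
  · push_cast
    simp
  · push_cast
    simp

/-- adjacency, shift `K` arbitrary, sites in `[-K', K')²`, `2 K' < N` -/
theorem AT_emb' {K K' : ℕ} (hN : 2 * K' < N) {a b : Site} (ha : Box K' a) (hb : Box K' b) :
    AT N (emb N K a) (emb N K b) = adj a b := by
  rw [emb_shift K K' a, emb_shift K K' b, AT_translate, AT_emb hN ha hb]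

theorem emb_inj' {K K' : ℕ} (hN : 2 * K' ≤ N) {x y : Site} (hx : Box K' x) (hy : Box K' y)
    (h : emb N K x = emb N K y) : x = y := by
  rw [emb_shift K K' x, emb_shift K K' y, add_left_inj] at h
  exact emb_inj hN hx hy h

variable {K K' : ℕ} {X0 : Finset Site}

/-- the embedding of `X0 ⊆ [-K', K')²`, shift `K` -/
def embF (K : ℕ) (hN : 2 * K' ≤ N) (hX : ∀ x ∈ X0, Box K' x) : X0 ↪ Tor N where
  toFun x := emb N K x
  inj' x y h := Subtype.ext (emb_inj' hN (hX x x.2) (hX y y.2) h)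

theorem embF_apply (hN : 2 * K' ≤ N) (hX : ∀ x ∈ X0, Box K' x) (x : X0) :
    embF K hN hX x = emb N K (x : Site) := rfl

theorem mem_range_embF (hK : K' ≤ K) (hK2 : 2 * K ≤ N) (hN : 2 * K' ≤ N)
    (hX : ∀ x ∈ X0, Box K' x) (y : Tor N) :
    y ∈ Set.range (embF K hN hX) ↔ lft K y ∈ X0 := by
  constructor
  · rintro ⟨x, rfl⟩
    rw [embF_apply, lft_emb hK2 ((hX x x.2).mono hK)]
    exact x.2
  · intro h
    exact ⟨⟨_, h⟩, emb_lft K y⟩

theorem lft_embF (hK : K' ≤ K) (hK2 : 2 * K ≤ N) (hN : 2 * K' ≤ N)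
    (hX : ∀ x ∈ X0, Box K' x) (x : X0) : lft K (embF K hN hX x) = x :=
  lft_emb hK2 ((hX x x.2).mono hK)

/-- a matrix which is `AT` inside the copy: its block is the adjacency matrix of `X0` -/
theorem submatrix_embF (hK : K' ≤ K) (hK2 : 2 * K ≤ N) (hN : 2 * K' < N)
    (hX : ∀ x ∈ X0, Box K' x) {A : Matrix (Tor N) (Tor N) ℝ}
    (h1 : ∀ x y, lft K x ∈ X0 → lft K y ∈ X0 → A x y = AT N x y) :
    A.submatrix (embF K hN.le hX) (embF K hN.le hX) = AF X0 := by
  ext x y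
  rw [Matrix.submatrix_apply, h1 _ _ ((mem_range_embF hK hK2 hN.le hX _).1 ⟨x, rfl⟩)
    ((mem_range_embF hK hK2 hN.le hX _).1 ⟨y, rfl⟩)]
  exact AT_emb' hN (hX x x.2) (hX y y.2)

theorem dec_embF (hK : K' ≤ K) (hK2 : 2 * K ≤ N) (hN : 2 * K' < N) (hX : ∀ x ∈ X0, Box K' x)
    {A : Matrix (Tor N) (Tor N) ℝ}
    (h0 : ∀ x y, (lft K x ∈ X0 ∧ lft K y ∉ X0 ∨ lft K x ∉ X0 ∧ lft K y ∈ X0) → A x y = 0) :
    Dec A fun x => x ∈ Set.range (embF K hN.le hX) := by
  intro x y h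
  simp only [mem_range_embF hK hK2] at h
  exact h0 x y h

end P365T2.H694
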