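import Vale.Agent.P365.Comp.Mix
import Vale.Agent.P365.Comp.Det
import Vale.Agent.P365.J376.V3

/-!
# P365-T2, block B4 (helper694): marginalisation over labels and values, change of index set,
block translations.
-/

set_option linter.all false

namespace P365T2.H694

open MeasureTheory P365L P365O P365T1 Function
open scoped ENNReal

section marg

variable {κ ι Λ : Type*} [Fintype κ] [DecidableEq κ] [Fintype ι] [DecidableEq ι] [Fintype Λ]

theorem sum_prod_one {R : Type*} [CommSemiring R] (p : Λ → R) (hp : ∑ k, p k = 1)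
    (J : Type*) [Fintype J] [DecidableEq J] : ∑ b : J → Λ, ∏ x, p (b x) = 1 := by
  classical
  have h := Finset.prod_univ_sum (fun _ : J => (Finset.univ : Finset Λ)) (fun _ k => p k)
  rw [Fintype.piFinset_univ] at h
  rw [← h]
  simp [hp]

/-- summation over the labels off the range of an injection -/
theorem sum_marg {R : Type*} [CommSemiring R] (p : Λ → R) (hp : ∑ k, p k = 1) (e : κ → ι)
    (he : Injective e) (G : (κ → Λ) → R) :
    ∑ l : ι → Λ, (∏ x, p (l x)) * G (fun k => l (e k)) =
      ∑ l : κ → Λ, (∏ k, p (l k)) * G l := by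
  classical
  let P : ι → Prop := fun x => x ∈ Set.range e
  rw [← (Equiv.piEquivPiSubtypeProd P (fun _ => Λ)).symm.sum_comp, Fintype.sum_prod_type]
  have h1 : ∀ (a : {x // P x} → Λ) (b : {x // ¬ P x} → Λ),
      (∏ x, p ((Equiv.piEquivPiSubtypeProd P (fun _ => Λ)).symm (a, b) x)) =
        (∏ x, p (a x)) * ∏ x, p (b x) := by
    intro a b
    rw [← Fintype.prod_subtype_mul_prod_subtype P]
    congr 1
    · refine Finset.prod_congr (by ext; simp) fun x _ => ?_
      rw [Equiv.piEquivPiSubtypeProd_symm_apply, dif_pos x.2]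
    · refine Finset.prod_congr (by ext; simp) fun x _ => ?_
      rw [Equiv.piEquivPiSubtypeProd_symm_apply, dif_neg x.2]
  have h2 : ∀ (a : {x // P x} → Λ) (b : {x // ¬ P x} → Λ),
      (fun k => (Equiv.piEquivPiSubtypeProd P (fun _ => Λ)).symm (a, b) (e k)) =
        fun k => a ⟨e k, ⟨k, rfl⟩⟩ := by
    intro a b
    funext k
    have hk : P (e k) := ⟨k, rfl⟩
    rw [Equiv.piEquivPiSubtypeProd_symm_apply, dif_pos hk]
  have h3 : ∀ a : {x // P x} → Λ,
      ∑ b : {x // ¬ P x} → Λ, (∏ x, p ((Equiv.piEquivPiSubtypeProd P (fun _ => Λ)).symm (a, b) x)) *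
        G (fun k => (Equiv.piEquivPiSubtypeProd P (fun _ => Λ)).symm (a, b) (e k)) =
      (∏ x, p (a x)) * G (fun k => a ⟨e k, ⟨k, rfl⟩⟩) := by
    intro a
    have h4 : ∀ b : {x // ¬ P x} → Λ,
        (∏ x, p ((Equiv.piEquivPiSubtypeProd P (fun _ => Λ)).symm (a, b) x)) *
          G (fun k => (Equiv.piEquivPiSubtypeProd P (fun _ => Λ)).symm (a, b) (e k)) =
        ((∏ x, p (a x)) * G (fun k => a ⟨e k, ⟨k, rfl⟩⟩)) * ∏ x, p (b x) := by
      intro b
      rw [h1, h2]
      ring
    rw [Finset.sum_congr rfl fun b _ => h4 b, ← Finset.mul_sum, sum_prod_one p hp, mul_one]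
  rw [Finset.sum_congr rfl fun a _ => h3 a]
  let eq : κ ≃ {x // P x} := Equiv.ofInjective e he
  rw [← (Equiv.arrowCongr eq (Equiv.refl Λ)).sum_comp]
  refine Finset.sum_congr rfl fun l _ => ?_
  have h5 : ∀ k, (Equiv.arrowCongr eq (Equiv.refl Λ)) l (eq k) = l k := by
    intro k
    simp [Equiv.arrowCongr]
  congr 1
  · rw [← eq.prod_comp]
    exact Finset.prod_congr rfl fun k _ => by rw [h5]
  · congr 1
    funext k
    exact h5 k

/-- marginals of products of different laws along an injection -/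
theorem mp_marg {α : Type*} [MeasurableSpace α] (ν : ι → Measure α)
    [∀ x, IsProbabilityMeasure (ν x)] (e : κ → ι) (he : Injective e) :
    MeasurePreserving (fun c : ι → α => fun k => c (e k)) (Measure.pi ν)
      (Measure.pi fun k => ν (e k)) := by
  have hm : Measurable (fun c : ι → α => fun k => c (e k)) :=
    measurable_pi_lambda _ fun k => measurable_pi_apply (e k)
  refine ⟨hm, ?_⟩
  symm
  refine Measure.pi_eq fun s hs => ?_
  rw [Measure.map_apply hm (MeasurableSet.univ_pi hs)]
  classical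
  obtain ⟨t, ht⟩ : ∃ t : ι → Set α, t = fun i => if h : ∃ k, e k = i then s h.choose else Set.univ :=
    ⟨_, rfl⟩
  have ht1 : ∀ k, t (e k) = s k := by
    intro k
    have h : ∃ k', e k' = e k := ⟨k, rfl⟩
    rw [ht]
    simp only [dif_pos h]
    rw [he h.choose_spec]
  have ht2 : ∀ i, i ∉ Finset.univ.image e → t i = Set.univ := by
    intro i hi
    have h : ¬ ∃ k, e k = i := by
      rintro ⟨k, rfl⟩
      exact hi (Finset.mem_image_of_mem e (Finset.mem_univ k))
    rw [ht]
    simp only [dif_neg h]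
  have h1 : (fun c : ι → α => fun k => c (e k)) ⁻¹' Set.univ.pi s = Set.univ.pi t := by
    ext c
    simp only [Set.mem_preimage, Set.mem_univ_pi]
    constructor
    · intro h i
      by_cases hi : i ∈ Finset.univ.image e
      · obtain ⟨k, _, rfl⟩ := Finset.mem_image.1 hi
        rw [ht1]
        exact h k
      · rw [ht2 i hi]
        exact Set.mem_univ _
    · intro h k
      rw [← ht1]
      exact h (e k)
  rw [h1, Measure.pi_pi]
  have h2 : ∏ i, ν i (t i) = ∏ i ∈ Finset.univ.image e, ν i (t i) := by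
    symm
    refine Finset.prod_subset (Finset.subset_univ _) fun i _ hi => ?_
    rw [ht2 i hi, measure_univ]
  rw [h2, Finset.prod_image fun a _ b _ h => he h]
  exact Finset.prod_congr rfl fun k _ => by rw [ht1]

/-- **marginalisation over labels and values** (lower integrals) -/
theorem lint_marg (p : Λ → ℝ≥0∞) (hp : ∑ k, p k = 1) (ν : Λ → Measure ℝ)
    [∀ k, IsProbabilityMeasure (ν k)] (e : κ → ι) (he : Injective e)
    (F : (κ → Λ) → (κ → ℝ) → ℝ≥0∞) (hF : ∀ l, Measurable (F l)) :
    ∑ l : ι → Λ, (∏ x, p (l x)) *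
        ∫⁻ v, F (fun k => l (e k)) (fun k => v (e k)) ∂(Measure.pi fun x => ν (l x)) =
      ∑ l : κ → Λ, (∏ k, p (l k)) * ∫⁻ v, F l v ∂(Measure.pi fun k => ν (l k)) := by
  rw [← sum_marg p hp e he]
  refine Finset.sum_congr rfl fun l _ => ?_
  congr 1
  exact (mp_marg (fun x => ν (l x)) e he).lintegral_comp (hF _)

/-- **marginalisation over labels and values** (real integrals) -/
theorem int_marg (p : Λ → ℝ) (hp : ∑ k, p k = 1) (ν : Λ → Measure ℝ)
    [∀ k, IsProbabilityMeasure (ν k)] (e : κ → ι) (he : Injective e)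
    (F : (κ → Λ) → (κ → ℝ) → ℝ) (hF : ∀ l, Measurable (F l)) :
    ∑ l : ι → Λ, (∏ x, p (l x)) *
        ∫ v, F (fun k => l (e k)) (fun k => v (e k)) ∂(Measure.pi fun x => ν (l x)) =
      ∑ l : κ → Λ, (∏ k, p (l k)) * ∫ v, F l v ∂(Measure.pi fun k => ν (l k)) := by
  rw [← sum_marg p hp e he]
  refine Finset.sum_congr rfl fun l _ => ?_
  congr 1
  have hmp := mp_marg (fun x => ν (l x)) e he
  rw [← hmp.map_eq, integral_map hmp.measurable.aemeasurable]
  exact (hF _).aestronglyMeasurable

end marg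

end P365T2.H694
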